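import Vale.Agent.P245.M5.Tail

/-!
# P245, module M6: exponential concentration with a dimension-free rate

Gronwall along the tilts for the exponential moment of a clipped Lipschitz function, up to the
time `a / R`, then the Gaussian moment bound on the tilts.
-/

namespace Vale.Agent.P245

open MeasureTheory
open scoped RealInnerProductSpace ENNReal

namespace M6

open M5

variable {n : ℕ}

/-- The clip at height `R`. -/
noncomputable def clip (R u : ℝ) : ℝ := if u ≤ R then u else R + 1 - Real.exp (-(u - R))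

/-- The derivative of the clip. -/
noncomputable def clipD (R u : ℝ) : ℝ := Real.exp (-max (u - R) 0)

lemma hasDerivAt_clip (R u : ℝ) : HasDerivAt (clip R) (clipD R u) u := by
  have h2 : HasDerivAt (fun x => R + 1 - Real.exp (-(x - R))) (Real.exp (-(u - R))) u := by
    simpa using (((hasDerivAt_id' u).sub_const R).neg.exp).const_sub (R + 1)
  rcases lt_trichotomy u R with h | h | h
  · have e : clip R =ᶠ[nhds u] fun x => x := by
      filter_upwards [Iio_mem_nhds h] with x hx
      exact if_pos (le_of_lt hx)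
    rw [clipD, max_eq_right (by linarith), neg_zero, Real.exp_zero]
    exact (hasDerivAt_id' u).congr_of_eventuallyEq e
  · subst h
    rw [clipD, sub_self, max_self, neg_zero, Real.exp_zero]
    have hl : HasDerivWithinAt (clip u) 1 (Set.Iic u) u :=
      (hasDerivAt_id' u).hasDerivWithinAt.congr (fun x hx => if_pos hx) (if_pos le_rfl)
    have hr : HasDerivWithinAt (clip u) 1 (Set.Ici u) u := by
      simp only [sub_self, neg_zero, Real.exp_zero] at h2
      refine h2.hasDerivWithinAt.congr (fun x hx => ?_) (by simp [clip])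
      rcases eq_or_lt_of_le (show u ≤ x from hx) with h | h
      · subst h; simp [clip]
      · exact if_neg (not_le.2 h)
    simpa using hl.union hr
  · have e : clip R =ᶠ[nhds u] fun x => R + 1 - Real.exp (-(x - R)) := by
      filter_upwards [Ioi_mem_nhds h] with x hx
      exact if_neg (not_le.2 hx)
    rw [clipD, max_eq_left (by linarith)]
    exact h2.congr_of_eventuallyEq e

lemma clipD_mem (R u : ℝ) : 0 ≤ clipD R u ∧ clipD R u ≤ 1 :=
  ⟨(Real.exp_pos _).le, Real.exp_le_one_iff.2 (neg_nonpos.2 (le_max_right _ _))⟩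

lemma clipD_lip (R u v : ℝ) : |clipD R u - clipD R v| ≤ |u - v| := by
  have key : ∀ a b : ℝ, 0 ≤ a → a ≤ b → |Real.exp (-a) - Real.exp (-b)| ≤ b - a := by
    intro a b ha hab
    have h1 : Real.exp (-b) ≤ Real.exp (-a) := Real.exp_le_exp.2 (by linarith)
    rw [abs_of_nonneg (by linarith)]
    have h2 : Real.exp (-b) = Real.exp (-a) * Real.exp (-(b - a)) := by
      rw [← Real.exp_add]
      ring_nf
    have h3 : Real.exp (-a) ≤ 1 := Real.exp_le_one_iff.2 (by linarith)
    have h4 := Real.add_one_le_exp (-(b - a))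
    rw [h2]
    nlinarith [Real.exp_pos (-a)]
  rcases le_total (max (u - R) 0) (max (v - R) 0) with h | h
  · refine (key _ _ (le_max_right _ _) h).trans ?_
    have := abs_max_sub_max_le_abs (v - R) (u - R) 0
    rw [sub_sub_sub_cancel_right, abs_sub_comm v u] at this
    exact le_trans (le_abs_self _) this
  · rw [clipD, clipD, abs_sub_comm (Real.exp _)]
    refine (key _ _ (le_max_right _ _) h).trans ?_
    have := abs_max_sub_max_le_abs (u - R) (v - R) 0
    rw [sub_sub_sub_cancel_right] at this
    exact le_trans (le_abs_self _) this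

lemma clip_mem {R u : ℝ} (hR : 0 ≤ R) (hu : 0 ≤ u) : 0 ≤ clip R u ∧ clip R u ≤ R + 1 := by
  unfold clip
  split_ifs with h
  · exact ⟨hu, by linarith⟩
  · have := Real.exp_pos (-(u - R))
    have h1 : Real.exp (-(u - R)) ≤ 1 := Real.exp_le_one_iff.2 (by linarith [not_le.1 h])
    exact ⟨by linarith, by linarith⟩

lemma test_clip {f : Rn n → ℝ} (hf : Test f) (hL : ∀ x, ‖fderiv ℝ f x‖ ≤ 1) (h0 : ∀ x, 0 ≤ f x)
    {R : ℝ} (hR : 0 ≤ R) :
    Test (fun x => clip R (f x)) ∧ ∀ x, ‖fderiv ℝ (fun x => clip R (f x)) x‖ ≤ 1 := by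
  obtain ⟨hc, M, hM⟩ := hf
  have hd : ∀ x, HasFDerivAt (fun x => clip R (f x)) (clipD R (f x) • fderiv ℝ f x) x := fun x =>
    (hasDerivAt_clip R (f x)).comp_hasFDerivAt x (hc.differentiable (by norm_num) x).hasFDerivAt
  have hn : ∀ x, ‖fderiv ℝ (fun x => clip R (f x)) x‖ ≤ 1 := by
    intro x
    rw [(hd x).fderiv, norm_smul, Real.norm_of_nonneg (clipD_mem R _).1]
    exact mul_le_one₀ (clipD_mem R _).2 (norm_nonneg _) (hL x)
  refine ⟨⟨?_, max (R + 1) (max 1 (1 + |M|)), fun x => ⟨?_, ?_, fun y => ?_⟩⟩, hn⟩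
  · refine contDiff_one_iff_fderiv.2 ⟨fun x => (hd x).differentiableAt, ?_⟩
    rw [funext fun x => (hd x).fderiv]
    have : Continuous (clipD R) := by unfold clipD; fun_prop
    exact (this.comp hc.continuous).smul (hc.continuous_fderiv (by norm_num))
  · rw [abs_of_nonneg (clip_mem hR (h0 x)).1]
    exact (clip_mem hR (h0 x)).2.trans (le_max_left _ _)
  · exact (hn x).trans ((le_max_left _ _).trans (le_max_right _ _))
  · refine le_trans ?_ (mul_le_mul_of_nonneg_right ((le_max_right _ _).trans (le_max_right _ _))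
      (norm_nonneg _))
    rw [(hd x).fderiv, (hd y).fderiv]
    have hdec : clipD R (f x) • fderiv ℝ f x - clipD R (f y) • fderiv ℝ f y
        = (clipD R (f x) - clipD R (f y)) • fderiv ℝ f x
          + clipD R (f y) • (fderiv ℝ f x - fderiv ℝ f y) := by
      rw [sub_smul, smul_sub]
      abel
    rw [hdec]
    refine (norm_add_le _ _).trans ?_
    rw [norm_smul, norm_smul, Real.norm_of_nonneg (clipD_mem R (f y)).1, Real.norm_eq_abs]
    have hlip : |f x - f y| ≤ ‖x - y‖ := by
      have := Convex.norm_image_sub_le_of_norm_fderiv_le (𝕜 := ℝ) (C := 1)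
        (fun z _ => hc.differentiable (by norm_num) z) (fun z _ => hL z) convex_univ
        (Set.mem_univ y) (Set.mem_univ x)
      simpa [Real.norm_eq_abs] using this
    calc |clipD R (f x) - clipD R (f y)| * ‖fderiv ℝ f x‖
          + clipD R (f y) * ‖fderiv ℝ f x - fderiv ℝ f y‖
        ≤ ‖x - y‖ * 1 + 1 * (|M| * ‖x - y‖) := by
          refine add_le_add ?_ ?_
          · exact mul_le_mul ((clipD_lip R _ _).trans hlip) (hL x) (norm_nonneg _) (norm_nonneg _)
          · refine mul_le_mul (clipD_mem R _).2 (((hM x).2.2 y).trans ?_) (norm_nonneg _) zero_le_one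
            exact mul_le_mul_of_nonneg_right (le_abs_self M) (norm_nonneg _)
      _ = (1 + |M|) * ‖x - y‖ := by ring

variable {μ : Measure (Rn n)}

lemma cv_eq_integral (h : Ctx μ) (t : ℝ) (th : Rn n) {f g : Rn n → ℝ} (hf : Continuous f)
    (hg : Continuous g) :
    cv μ t th f g = ∫ x, (f x - ex μ t th f) * (g x - ex μ t th g) ∂(tilt μ t th) := by
  haveI := h.tilt_prob t th
  have hb := h.tilt_bdd t th
  have e : ∀ x, (f x - ex μ t th f) * (g x - ex μ t th g)
      = f x * g x + ((-ex μ t th g) * f x + ((-ex μ t th f) * g x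
        + ex μ t th f * ex μ t th g)) := fun x => by ring
  simp only [e]
  rw [integral_add (integrable_bdd hb (by fun_prop)) (integrable_bdd hb (by fun_prop)),
    integral_add (integrable_bdd hb (by fun_prop)) (integrable_bdd hb (by fun_prop)),
    integral_add (integrable_bdd hb (by fun_prop)) (integrable_bdd hb (by fun_prop))]
  simp only [integral_const_mul, integral_const, probReal_univ, smul_eq_mul, one_mul]
  simp only [h.tilt_int, cv]
  ring

lemma vr_tilt (h : Ctx μ) (t : ℝ) (th : Rn n) {f : Rn n → ℝ} (hf : Continuous f) :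
    vr (tilt μ t th) f = cv μ t th f f := by
  rw [cv_eq_integral h t th hf hf, vr, h.tilt_int t th f]
  simp only [pow_two]

lemma cv_sq_le (h : Ctx μ) (t : ℝ) (th : Rn n) {f g : Rn n → ℝ} (hf : Continuous f)
    (hg : Continuous g) :
    cv μ t th f g ^ 2 ≤ vr (tilt μ t th) f * vr (tilt μ t th) g := by
  haveI := h.tilt_prob t th
  have hb := h.tilt_bdd t th
  rw [cv_eq_integral h t th hf hg, vr_tilt h t th hf, vr_tilt h t th hg,
    cv_eq_integral h t th hf hf, cv_eq_integral h t th hg hg]
  generalize ex μ t th f = a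
  generalize ex μ t th g = b
  have hq : ∀ s : ℝ, 0 ≤ (∫ x, (g x - b) * (g x - b) ∂(tilt μ t th)) * (s * s)
      + (-2 * ∫ x, (f x - a) * (g x - b) ∂(tilt μ t th)) * s
      + ∫ x, (f x - a) * (f x - a) ∂(tilt μ t th) := by
    intro s
    have h0 : 0 ≤ ∫ x, ((f x - a) - s * (g x - b)) ^ 2 ∂(tilt μ t th) :=
      integral_nonneg fun x => sq_nonneg _
    have e : ∀ x, ((f x - a) - s * (g x - b)) ^ 2 = (s * s) * ((g x - b) * (g x - b))
        + ((-2 * s) * ((f x - a) * (g x - b)) + (f x - a) * (f x - a)) := fun x => by ring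
    simp only [e] at h0
    rw [integral_add (integrable_bdd hb (by fun_prop)) (integrable_bdd hb (by fun_prop)),
      integral_add (integrable_bdd hb (by fun_prop)) (integrable_bdd hb (by fun_prop)),
      integral_const_mul, integral_const_mul] at h0
    linarith
  have := discrim_le_zero hq
  rw [discrim] at this
  linarith

lemma inner_unit_sum (v x : Rn n) : ⟪x, v⟫ = ∑ i, v i * x i := by
  rw [PiLp.inner_apply]
  simp [mul_comm]

lemma grad_le (h : Ctx μ) (t : ℝ) (th : Rn n) {f : Rn n → ℝ} (hf : Continuous f) {V lam : ℝ}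
    (hV0 : 0 ≤ V) (hl0 : 0 ≤ lam) (hV : vr (tilt μ t th) f ≤ V)
    (hlam : ∀ v : Rn n, vr (tilt μ t th) (fun x => ⟪x, v⟫) ≤ lam * ‖v‖ ^ 2) :
    ∑ i, cv μ t th f (fun x => x i) ^ 2 ≤ V * lam := by
  haveI := h.tilt_prob t th
  have hb := h.tilt_bdd t th
  set g : Rn n := WithLp.toLp 2 fun i => cv μ t th f (fun x => x i) with hg
  have hgn : ∑ i, cv μ t th f (fun x => x i) ^ 2 = ‖g‖ ^ 2 := by
    rw [EuclideanSpace.real_norm_sq_eq]
  have hlin : cv μ t th f (fun x => ⟪x, g⟫) = ‖g‖ ^ 2 := by
    rw [cv_eq_integral h t th hf (by fun_prop), ← hgn]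
    have hm : ex μ t th (fun x => ⟪x, g⟫) = ∑ i, g i * ex μ t th (fun x => x i) := by
      rw [← h.tilt_int]
      simp only [inner_unit_sum]
      rw [integral_finsetSum _ fun i _ => integrable_bdd hb (by fun_prop)]
      simp only [integral_const_mul]
      simp only [h.tilt_int]
    rw [hm]
    simp only [inner_unit_sum, ← Finset.sum_sub_distrib, Finset.mul_sum]
    rw [integral_finsetSum _ fun i _ => integrable_bdd hb (by fun_prop)]
    refine Finset.sum_congr rfl fun i _ => ?_
    have e : ∀ x : Rn n, (f x - ex μ t th f) * (g i * x i - g i * ex μ t th fun x => x i)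
        = g i * ((f x - ex μ t th f) * (x i - ex μ t th fun x => x i)) := fun x => by ring
    simp only [e, integral_const_mul]
    rw [← cv_eq_integral h t th hf (by fun_prop), hg, pow_two]
  have h2 := cv_sq_le h t th hf (g := fun x => ⟪x, g⟫) (by fun_prop)
  rw [hlin] at h2
  rw [hgn]
  rcases eq_or_lt_of_le (sq_nonneg ‖g‖) with h0 | h0
  · rw [← h0]
    positivity
  · have h3 : (‖g‖ ^ 2) ^ 2 ≤ V * (lam * ‖g‖ ^ 2) :=
      h2.trans (mul_le_mul hV (hlam g) (integral_nonneg fun x => sq_nonneg _) hV0)
    nlinarith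

lemma sq_exp_bound {c : ℝ} (hc : 0 < c) {t : ℝ} (ht : 0 < t) :
    1 / t ^ 2 * Real.exp (-c / t) ≤ 2 / c ^ 2 := by
  have h1 := Real.quadratic_le_exp_of_nonneg (x := c / t) (by positivity)
  have h2 : (c / t) ^ 2 / 2 ≤ Real.exp (c / t) := le_trans (by
    have : 0 ≤ c / t := by positivity
    linarith) h1
  rw [neg_div, Real.exp_neg, ← div_eq_mul_inv, div_le_iff₀ (Real.exp_pos _)]
  calc 1 / t ^ 2 = 2 / c ^ 2 * ((c / t) ^ 2 / 2) := by field_simp
    _ ≤ 2 / c ^ 2 * Real.exp (c / t) := by gcongr

end M6

open M5 M6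

/-- M6: exponential concentration with a dimension-free rate. -/
theorem expConc (hT : TiltSLC) (hMix : Mixture) (hE : ExCalculus) (hGen : Generator)
    (hI : ImprovedPoincare) (hP : PoincareSLC) (hLin : LinVarSLC) (hMgf : MgfSLC)
    (hS : SpectralTail) : ExpConc := by
  obtain ⟨cS, K, CS, hcS, hK, hCS, hS⟩ := hS
  set a : ℝ := min (cS / 2) 1 with ha
  have ha0 : 0 < a := lt_min (by positivity) one_pos
  set s₀ : ℝ := a / 8 with hs₀
  have hs₀0 : 0 < s₀ := by positivity
  set A : ℝ := K * Real.sqrt K with hA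
  have hA0 : 0 ≤ A := by positivity
  set D : ℝ := CS * Real.exp 1 * (2 / (cS / 2) ^ 2) with hD
  have hD0 : 0 ≤ D := by positivity
  set C₁ : ℝ := (1 + D * 1) * Real.exp (A * 1) with hC₁
  have hC₁1 : 1 ≤ C₁ := by
    have := Real.one_le_exp (show 0 ≤ A * 1 by positivity)
    nlinarith
  set C : ℝ := max (max 1 (a / cS)) (2 * C₁ * C₁ * Real.exp s₀) with hC
  refine ⟨s₀ / 2, C, by positivity, by positivity,
    fun n μ hμ hs hb hsub f hf hfL hf0 hmed r hr => ?_⟩
  have hctx : Ctx μ := ⟨hμ, hs, hb, hT, hE⟩
  set L := Real.log (n + 1)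
  have hL1 : 1 ≤ (1 + L) ^ 2 := one_le_pow₀ (by
    have : 0 ≤ L := Real.log_nonneg (by simp)
    linarith)
  have hC1 : 1 ≤ C := (le_max_left _ _).trans (le_max_left _ _)
  have hr1 : 1 ≤ r := le_trans (one_le_mul_of_one_le_of_one_le hC1 hL1) hr
  set T := a / r with hTdef
  have hT0 : 0 < T := by positivity
  have hT1 : T ≤ 1 := by
    rw [hTdef, div_le_one (by linarith)]
    exact (min_le_right _ _).trans hr1
  have hTs : T ≤ cS / (1 + L) ^ 2 := by
    rw [hTdef, div_le_div_iff₀ (by linarith) (by linarith)]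
    have h1 : a / cS * (1 + L) ^ 2 ≤ r := le_trans
      (mul_le_mul_of_nonneg_right ((le_max_right _ _).trans (le_max_left _ _)) (by positivity)) hr
    rw [div_mul_eq_mul_div, div_le_iff₀ hcS] at h1
    linarith
  obtain ⟨hFt, hFL⟩ := test_clip hf hfL hf0 (by linarith : (0 : ℝ) ≤ r)
  set F : Rn n → ℝ := fun x => clip r (f x) with hF
  have hFc : Continuous F := hFt.1.continuous
  have hF01 : ∀ x, 0 ≤ F x ∧ F x ≤ r + 1 := fun x => clip_mem (by linarith) (hf0 x)
  set m₀ : ℝ := ∫ x, F x ∂μ with hm₀
  haveI := hμ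
  have hm01 : 0 ≤ m₀ ∧ m₀ ≤ r + 1 := by
    refine ⟨integral_nonneg fun x => (hF01 x).1, ?_⟩
    exact (integral_mono (integrable_bdd hb hFc) (integrable_const _) fun x => (hF01 x).2).trans
      (by simp)
  have hexF : ∀ t th, 0 ≤ ex μ t th F ∧ ex μ t th F ≤ r + 1 := by
    intro t th
    haveI := hctx.tilt_prob t th
    rw [← hctx.tilt_int]
    refine ⟨integral_nonneg fun x => (hF01 x).1, ?_⟩
    exact (integral_mono (integrable_bdd (hctx.tilt_bdd t th) hFc) (integrable_const _)
      fun x => (hF01 x).2).trans (by simp)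
  -- exponential moments of the clipped function
  have hmain : ∀ s : ℝ, |s| ≤ 1 →
      ∫ x, Real.exp (s * (F x - m₀)) ∂μ ≤ C₁ * Real.exp (s ^ 2 / T) := by
    intro s hs1
    have hN1 : Nice fun t th => ex μ t th F + 1 := (hctx.nice_ex hFc).add (Nice.const 1)
    have h1le : ∀ t th, 1 ≤ ex μ t th F + 1 := fun t th => by linarith [(hexF t th).1]
    obtain ⟨hGn, hGgen⟩ := comp_rules (μ := μ) hN1 h1le
      (φ := fun x => Real.exp (s * (x - 1 - m₀)))
      (φ₁ := fun x => Real.exp (s * (x - 1 - m₀)) * s)
      (φ₂ := fun x => Real.exp (s * (x - 1 - m₀)) * s * s)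
      (fun x _ => by
        simpa using ((((hasDerivAt_id' x).sub_const 1).sub_const m₀).const_mul s).exp)
      (fun x _ => by
        simpa using (((((hasDerivAt_id' x).sub_const 1).sub_const m₀).const_mul s).exp).mul_const s)
      (fun x _ => by fun_prop) (by fun_prop)
    set G : ℝ → Rn n → ℝ := fun t th => Real.exp (s * (ex μ t th F + 1 - 1 - m₀)) with hG
    have hGb : ∀ t th, G t th ≤ Real.exp (r + 1) := by
      intro t th
      refine Real.exp_le_exp.2 ?_
      have : |ex μ t th F + 1 - 1 - m₀| ≤ r + 1 :=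
        abs_le.2 ⟨by linarith [(hexF t th).1, hm01.2], by linarith [(hexF t th).2, hm01.1]⟩
      calc s * (ex μ t th F + 1 - 1 - m₀) ≤ |s * (ex μ t th F + 1 - 1 - m₀)| := le_abs_self _
        _ ≤ r + 1 := by
          rw [abs_mul]
          exact (mul_le_mul hs1 this (abs_nonneg _) zero_le_one).trans (by linarith)
    set bad : ℝ → Set (Rn n) := fun t =>
      {th | ∃ v : Rn n, ‖v‖ = 1 ∧ K < cv μ t th (fun x => ⟪x, v⟫) fun x => ⟪x, v⟫}
    have hbad : ∀ t, IsOpen (bad t) := by
      intro t
      have : bad t = ⋃ v : {v : Rn n // ‖v‖ = 1},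
          {th | K < cv μ t th (fun x => ⟪x, v.1⟫) fun x => ⟪x, v.1⟫} := by
        ext th
        simp [bad]
      rw [this]
      refine isOpen_iUnion fun v => isOpen_lt continuous_const ?_
      exact ((hctx.nice_ex (by fun_prop)).continuous_space t).sub
        (((hctx.nice_ex (by fun_prop)).continuous_space t).mul
          ((hctx.nice_ex (by fun_prop)).continuous_space t))
    have hgen : ∀ t, 0 < t → ∀ th, gen μ G t th
        ≤ A / (2 * Real.sqrt t) * G t th
          + (bad t).indicator (fun _ => 1 / (2 * t ^ 2) * Real.exp (r + 1)) th := by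
      intro t ht th
      haveI := hctx.tilt_prob t th
      have hG0 : 0 < G t th := Real.exp_pos _
      rw [hGgen t th, gen_add (hctx.nice_ex hFc) (Nice.const 1), gen_const,
        (hctx.ex_facts hFc).2.2]
      simp only [add_zero, mul_zero, zero_add]
      have hD1 : ∀ i, D1 i ((fun t th => ex μ t th F + 1) t) th = cv μ t th F fun x => x i := by
        intro i
        rw [D1_add (hctx.nice_ex hFc) (Nice.const 1), D1_const', add_zero]
        exact ((hctx.ex_facts hFc).2.1 t th i).deriv
      simp only [hD1]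
      have hs2 : s * s ≤ 1 := by
        have := mul_le_mul hs1 hs1 (abs_nonneg _) zero_le_one
        rwa [← abs_mul, abs_of_nonneg (mul_self_nonneg _), one_mul] at this
      have hen : energy (tilt μ t th) F ≤ 1 := by
        refine le_trans (integral_mono_of_nonneg (ae_of_all _ fun x => by positivity)
          (integrable_const (1 : ℝ)) (ae_of_all _ fun x => ?_)) (by simp)
        exact pow_le_one₀ (norm_nonneg _) (hFL x)
      have hGs : ∀ B, ∑ i, (cv μ t th F fun x => x i) ^ 2 ≤ B →
          2⁻¹ * (Real.exp (s * (ex μ t th F + 1 - 1 - m₀)) * s * s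
            * ∑ i, (cv μ t th F fun x => x i) ^ 2) ≤ 2⁻¹ * (G t th * B) := by
        intro B hB
        refine mul_le_mul_of_nonneg_left ?_ (by norm_num)
        rw [mul_assoc _ s s, mul_assoc]
        refine mul_le_mul_of_nonneg_left ((mul_le_of_le_one_left
          (Finset.sum_nonneg fun i _ => sq_nonneg _) hs2).trans hB) hG0.le
      by_cases hth : th ∈ bad t
      · rw [Set.indicator_of_mem hth]
        have hB := grad_le hctx t th hFc (V := 1 / t) (lam := 1 / t) (by positivity) (by positivity)
          ((hP n t _ inferInstance ht (hctx.tilt_slc t th) F hFt).trans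
            (mul_le_of_le_one_right (by positivity) hen))
          (hLin n t _ inferInstance ht (hctx.tilt_slc t th) (hctx.tilt_bdd t th))
        refine (hGs _ hB).trans ?_
        refine le_add_of_nonneg_of_le (by positivity) ?_
        calc 2⁻¹ * (G t th * (1 / t * (1 / t))) = 1 / (2 * t ^ 2) * G t th := by field_simp
          _ ≤ 1 / (2 * t ^ 2) * Real.exp (r + 1) := by gcongr; exact hGb t th
      · rw [Set.indicator_of_notMem hth, add_zero]
        have hlam : ∀ v : Rn n, vr (tilt μ t th) (fun x => ⟪x, v⟫) ≤ K * ‖v‖ ^ 2 := by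
          intro v
          rcases eq_or_ne v 0 with rfl | hv
          · simp [vr]
          set u := ‖v‖⁻¹ • v with hu
          have hu1 : ‖u‖ = 1 := norm_smul_inv_norm hv
          have hle : cv μ t th (fun x => ⟪x, u⟫) (fun x => ⟪x, u⟫) ≤ K := by
            by_contra hc
            exact hth ⟨u, hu1, not_le.1 hc⟩
          rw [← vr_tilt hctx t th (by fun_prop)] at hle
          have hvu : v = ‖v‖ • u := by
            rw [hu, smul_smul, mul_inv_cancel₀ (norm_ne_zero_iff.2 hv), one_smul]
          have : vr (tilt μ t th) (fun x => ⟪x, v⟫)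
              = ‖v‖ ^ 2 * vr (tilt μ t th) (fun x => ⟪x, u⟫) := by
            conv_lhs => rw [hvu]
            simp only [vr, real_inner_smul_right, integral_const_mul]
            simp only [← mul_sub, mul_pow, integral_const_mul]
          rw [this, mul_comm K]
          exact mul_le_mul_of_nonneg_left hle (by positivity)
        have hB := grad_le hctx t th hFc (V := Real.sqrt (K / t)) (lam := K) (Real.sqrt_nonneg _) hK.le
          ((hI n t K _ inferInstance ht hK.le (hctx.tilt_slc t th) (hctx.tilt_bdd t th) hlam F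
            hFt).trans (mul_le_of_le_one_right (Real.sqrt_nonneg _) hen)) hlam
        refine (hGs _ hB).trans (le_of_eq ?_)
        rw [hA, Real.sqrt_div hK.le]
        field_simp
    obtain ⟨hcont, hderiv⟩ := hGen n μ hμ hb T G hT0 (hGn.admissible T)
    set J : ℝ → ℝ := fun t => ∫ th, G t th ∂(obs μ t) with hJ
    have hobs : ∀ t, IsProbabilityMeasure (obs μ t) := fun t =>
      Measure.isProbabilityMeasure_map (by fun_prop)
    have hd : ∀ t ∈ Set.Ioo 0 T, HasDerivAt (fun u => J u * Real.exp (-(A * Real.sqrt u)) - D * u)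
        ((∫ th, gen μ G t th ∂(obs μ t)) * Real.exp (-(A * Real.sqrt t))
          + J t * (Real.exp (-(A * Real.sqrt t)) * -(A * (1 / (2 * Real.sqrt t)))) - D * 1) t :=
      fun t ht => ((hderiv t ht).mul
        (((Real.hasDerivAt_sqrt ht.1.ne').const_mul A).neg.exp)).sub
          ((hasDerivAt_id' t).const_mul D)
    have hanti : AntitoneOn (fun u => J u * Real.exp (-(A * Real.sqrt u)) - D * u)
        (Set.Icc 0 T) := by
      refine antitoneOn_of_deriv_nonpos (convex_Icc 0 T)
        ((hcont.mul (by fun_prop)).sub (by fun_prop)) ?_ ?_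
      · rw [interior_Icc]
        exact fun t ht => (hd t ht).differentiableAt.differentiableWithinAt
      · rw [interior_Icc]
        intro t ht
        rw [(hd t ht).deriv]
        haveI := hobs t
        obtain ⟨hgc, M, hM⟩ := gen_bounded (μ := μ) hGn (fun i => hctx.ex_bd (by fun_prop))
          (fun i u => (hctx.nice_ex (by fun_prop)).continuous_space u) t
        have i1 : Integrable (fun th => A / (2 * Real.sqrt t) * G t th) (obs μ t) := by
          obtain ⟨M', hM'⟩ := hGn.b0
          exact (Integrable.of_bound (hGn.continuous_space t).aestronglyMeasurable M'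
            (ae_of_all _ fun th => hM' t th)).const_mul _
        have i2 : Integrable ((bad t).indicator
            fun _ => 1 / (2 * t ^ 2) * Real.exp (r + 1)) (obs μ t) :=
          (integrable_const _).indicator (hbad t).measurableSet
        have hle : ∫ th, gen μ G t th ∂(obs μ t) ≤ A / (2 * Real.sqrt t) * J t + D := by
          refine (integral_mono (Integrable.of_bound hgc.aestronglyMeasurable M
            (ae_of_all _ fun th => hM th)) (i1.add i2) (hgen t ht.1)).trans ?_
          rw [integral_add' i1 i2, integral_const_mul, integral_indicator_const _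
            (hbad t).measurableSet]
          refine add_le_add le_rfl ?_
          have hp : (obs μ t).real (bad t) ≤ CS * Real.exp (-cS / t) :=
            ENNReal.toReal_le_of_le_ofReal (by positivity)
              (hS n μ hμ hs hb hsub t ht.1 (ht.2.le.trans hTs))
          rw [smul_eq_mul]
          refine (mul_le_mul_of_nonneg_right hp (by positivity)).trans ?_
          have hra : r ≤ a / t := by
            rw [le_div_iff₀ ht.1]
            have := ht.2.le
            rw [hTdef, le_div_iff₀ (by linarith)] at this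
            linarith
          have hexp : Real.exp (-cS / t) * Real.exp (r + 1)
              ≤ Real.exp 1 * Real.exp (-(cS / 2) / t) := by
            rw [← Real.exp_add, ← Real.exp_add, Real.exp_le_exp]
            have : a / t ≤ cS / 2 / t := div_le_div_of_nonneg_right (min_le_left _ _) ht.1.le
            have e1 : -cS / t = -(cS / t) := by ring
            have e2 : -(cS / 2) / t = -(cS / 2 / t) := by ring
            have e3 : cS / t = cS / 2 / t + cS / 2 / t := by ring
            linarith
          have hq := sq_exp_bound (c := cS / 2) (by positivity) ht.1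
          calc CS * Real.exp (-cS / t) * (1 / (2 * t ^ 2) * Real.exp (r + 1))
              = CS * (1 / (2 * t ^ 2)) * (Real.exp (-cS / t) * Real.exp (r + 1)) := by ring
            _ ≤ CS * (1 / t ^ 2) * (Real.exp 1 * Real.exp (-(cS / 2) / t)) := by
              refine mul_le_mul (mul_le_mul_of_nonneg_left ?_ hCS.le) hexp (by positivity)
                (by positivity)
              have := pow_pos ht.1 2
              gcongr
              linarith
            _ = CS * Real.exp 1 * (1 / t ^ 2 * Real.exp (-(cS / 2) / t)) := by ring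
            _ ≤ D := by
              rw [hD]
              exact mul_le_mul_of_nonneg_left hq (by positivity)
        have hpos := Real.exp_pos (-(A * Real.sqrt t))
        have hle1 : Real.exp (-(A * Real.sqrt t)) ≤ 1 :=
          Real.exp_le_one_iff.2 (neg_nonpos.2 (by positivity))
        have h' := mul_le_mul_of_nonneg_right hle hpos.le
        have h'' : D * Real.exp (-(A * Real.sqrt t)) ≤ D := mul_le_of_le_one_right hD0 hle1
        have e : A * (1 / (2 * Real.sqrt t)) = A / (2 * Real.sqrt t) := by ring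
        rw [e]
        linarith
    have hJ0 : J 0 = 1 := by
      have hdirac : obs μ 0 = Measure.dirac 0 := by simp [obs, Measure.map_const]
      have htilt : tilt μ 0 0 = μ := by
        have : texp (n := n) 0 0 = fun _ => (0 : ℝ) := by
          ext x
          simp [texp]
        rw [tilt, this, tilted_const]
      rw [hJ]
      dsimp only
      rw [hdirac, integral_dirac, hG]
      dsimp only
      rw [← hctx.tilt_int, htilt]
      simp [hm₀]
    have hJT : J T ≤ C₁ := by
      have := hanti (Set.left_mem_Icc.2 hT0.le) (Set.right_mem_Icc.2 hT0.le) hT0.le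
      simp only [Real.sqrt_zero, mul_zero, neg_zero, Real.exp_zero, mul_one, sub_zero, hJ0] at this
      have h1 : J T * Real.exp (-(A * Real.sqrt T)) ≤ 1 + D * 1 := by
        have := mul_le_mul_of_nonneg_left hT1 hD0
        linarith
      rw [Real.exp_neg, ← div_eq_mul_inv, div_le_iff₀ (Real.exp_pos _)] at h1
      refine h1.trans (mul_le_mul_of_nonneg_left (Real.exp_le_exp.2
        (mul_le_mul_of_nonneg_left (Real.sqrt_le_one.2 hT1) hA0)) (by linarith))
    -- pass to `μ` through the mixture
    set B := Real.exp (r + 1)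
    have hHle : ∀ x, Real.exp (s * (F x - m₀)) ≤ B := by
      intro x
      refine Real.exp_le_exp.2 ((le_abs_self _).trans ?_)
      rw [abs_mul]
      refine (mul_le_mul hs1 ?_ (abs_nonneg _) zero_le_one).trans (le_of_eq (one_mul (r + 1)))
      exact abs_le.2 ⟨by linarith [(hF01 x).1, hm01.2], by linarith [(hF01 x).2, hm01.1]⟩
    have hHc : Continuous fun x => Real.exp (s * (F x - m₀)) / B := by fun_prop
    have hmix := (hMix n μ hμ hb T hT0).1 (fun _ x => Real.exp (s * (F x - m₀)) / B)
      (hHc.measurable.comp measurable_snd) fun th x => by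
        rw [abs_of_nonneg (by positivity), div_le_one (Real.exp_pos _)]
        exact hHle x
    have hfst : ∫ p, Real.exp (s * (F p.1 - m₀)) / B ∂(μ.prod (ProbabilityTheory.stdGaussian (Rn n)))
        = (∫ x, Real.exp (s * (F x - m₀)) ∂μ) / B := by
      rw [integral_fun_fst (fun x => Real.exp (s * (F x - m₀)) / B), integral_div]
      simp
    rw [hfst] at hmix
    haveI := hobs T
    have hbound : ∀ th, ex μ T th (fun x => Real.exp (s * (F x - m₀)) / B)
        ≤ Real.exp (s ^ 2 / T) / B * G T th := by
      intro th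
      haveI := hctx.tilt_prob T th
      rw [← hctx.tilt_int, integral_div, div_mul_eq_mul_div]
      refine div_le_div_of_nonneg_right ?_ (Real.exp_pos _).le
      have h1 := hMgf n T _ inferInstance hT0 (hctx.tilt_slc T th) F hFt hFL s
      rw [hctx.tilt_int T th F] at h1
      have e : ∀ x, Real.exp (s * (F x - m₀))
          = Real.exp (s * (F x - ex μ T th F)) * G T th := fun x => by
        rw [hG]
        dsimp only
        rw [← Real.exp_add]
        ring_nf
      simp only [e, integral_mul_const]
      exact mul_le_mul_of_nonneg_right h1 (Real.exp_pos _).le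
    have hGi : Integrable (G T) (obs μ T) := by
      obtain ⟨M', hM'⟩ := hGn.b0
      exact Integrable.of_bound (hGn.continuous_space T).aestronglyMeasurable M'
        (ae_of_all _ fun th => hM' T th)
    have h2 : (∫ x, Real.exp (s * (F x - m₀)) ∂μ) / B ≤ Real.exp (s ^ 2 / T) / B * J T := by
      rw [hmix, hJ]
      dsimp only
      rw [← integral_const_mul]
      refine integral_mono_of_nonneg (ae_of_all _ fun th => ?_) (hGi.const_mul _)
        (ae_of_all _ hbound)
      haveI := hctx.tilt_prob T th
      dsimp only [Pi.zero_apply]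
      rw [← hctx.tilt_int]
      exact integral_nonneg fun x => by positivity
    rw [div_mul_eq_mul_div, div_le_div_iff_of_pos_right (Real.exp_pos _)] at h2
    refine h2.trans ?_
    rw [mul_comm C₁]
    exact mul_le_mul_of_nonneg_left hJT (Real.exp_pos _).le
  -- Markov twice
  have ha1 : a ≤ 1 := min_le_right _ _
  have hs2T : s₀ ^ 2 / T = s₀ * r / 8 := by
    rw [hTdef, hs₀]
    field_simp
  have hint : ∀ s : ℝ, Integrable (fun x => Real.exp (s * (F x - m₀))) μ := fun s =>
    integrable_bdd hb (by fun_prop)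
  have hlow : Real.exp (s₀ * (m₀ - 1)) ≤ 2 * C₁ * Real.exp (s₀ * r / 8) := by
    have hm := hmain (-s₀) (by rw [abs_neg, abs_of_pos hs₀0]; linarith)
    rw [neg_sq, hs2T] at hm
    have hmk := mul_meas_ge_le_integral_of_nonneg
      (ae_of_all μ fun x => (Real.exp_pos _).le) (hint (-s₀)) (Real.exp (s₀ * (m₀ - 1)))
    have hsub : {x | f x ≤ 1} ⊆ {x | Real.exp (s₀ * (m₀ - 1)) ≤ Real.exp (-s₀ * (F x - m₀))} := by
      intro x hx
      have h1 : f x ≤ r := le_trans hx hr1
      have : F x = f x := if_pos h1
      refine Real.exp_le_exp.2 ?_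
      rw [this]
      nlinarith [show f x ≤ 1 from hx]
    have hhalf : (1 / 2 : ℝ) ≤ μ.real {x | Real.exp (s₀ * (m₀ - 1))
        ≤ Real.exp (-s₀ * (F x - m₀))} := by
      have := ENNReal.toReal_mono (measure_ne_top μ _) (hmed.trans (measure_mono hsub))
      simpa [Measure.real] using this
    have := mul_le_mul_of_nonneg_left hhalf (Real.exp_pos (s₀ * (m₀ - 1))).le
    linarith
  have hm := hmain s₀ (by rw [abs_of_pos hs₀0]; linarith)
  rw [hs2T] at hm
  have hmk := mul_meas_ge_le_integral_of_nonneg
    (ae_of_all μ fun x => (Real.exp_pos _).le) (hint s₀) (Real.exp (s₀ * (r - m₀)))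
  have hsub2 : {x | r ≤ f x} ⊆ {x | Real.exp (s₀ * (r - m₀)) ≤ Real.exp (s₀ * (F x - m₀))} := by
    intro x hx
    have : r ≤ F x := by
      simp only [hF, clip]
      split_ifs with h
      · exact hx
      · have h1 : Real.exp (-(f x - r)) ≤ 1 := Real.exp_le_one_iff.2 (by linarith [not_le.1 h])
        linarith
    refine Real.exp_le_exp.2 ?_
    nlinarith
  refine (measure_mono hsub2).trans ?_
  rw [← ofReal_measureReal]
  refine ENNReal.ofReal_le_ofReal ?_
  set P := μ.real {x | Real.exp (s₀ * (r - m₀)) ≤ Real.exp (s₀ * (F x - m₀))}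
  have hP0 : 0 ≤ P := measureReal_nonneg
  have h3 : Real.exp (s₀ * (r - 1)) * P ≤ 2 * C₁ * C₁ * Real.exp (s₀ * r / 4) := by
    have e : Real.exp (s₀ * (r - 1)) = Real.exp (s₀ * (m₀ - 1)) * Real.exp (s₀ * (r - m₀)) := by
      rw [← Real.exp_add]; ring_nf
    rw [e, mul_assoc]
    refine (mul_le_mul hlow (hmk.trans hm) (by positivity) (by positivity)).trans (le_of_eq ?_)
    rw [show s₀ * r / 4 = s₀ * r / 8 + s₀ * r / 8 by ring, Real.exp_add]
    ring
  have e2 : Real.exp (s₀ * (r - 1)) * (2 * C₁ * C₁ * Real.exp s₀ * Real.exp (-(s₀ / 2) * r))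
      = 2 * C₁ * C₁ * Real.exp (s₀ * r / 2) := by
    rw [mul_comm, mul_assoc, mul_assoc, ← Real.exp_add, ← Real.exp_add]
    ring_nf
  have h4 : P ≤ 2 * C₁ * C₁ * Real.exp s₀ * Real.exp (-(s₀ / 2) * r) := by
    refine le_of_mul_le_mul_left (h3.trans ?_) (Real.exp_pos (s₀ * (r - 1)))
    rw [e2]
    refine mul_le_mul_of_nonneg_left (Real.exp_le_exp.2 ?_) (by positivity)
    have := mul_nonneg hs₀0.le (by linarith : (0 : ℝ) ≤ r)
    linarith
  refine h4.trans ?_
  exact mul_le_mul_of_nonneg_right (le_max_right _ _) (Real.exp_pos _).le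

end Vale.Agent.P245
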